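import Vale.Agent.P362.Main

namespace Vale.Agent.Results.P362.AlphaTotEqFour

open _root_.P362

/-- The optimal exponent relating randomized and quantum query complexity of total Boolean
functions equals `4`, and it is attained as an exponent. -/
theorem result : alphaTot = 4 ∧ (4 : ℝ) ∈ admissible :=
  ⟨alphaTot_eq_four, four_admissible⟩

end Vale.Agent.Results.P362.AlphaTotEqFour
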