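import Vale.Agent.P362.FinalLower

namespace Vale.Agent.Results.P362.NoSmallerExponent

open _root_.P362

/-- For every `α < 4` and every constant `C` there is a total Boolean function computed by a
bounded-error quantum algorithm with `q` queries, while every bounded-error randomized algorithm
for it makes more than `C (1 + q)^α` queries. -/
theorem result (α : ℝ) (hα : α < 4) (C : ℝ) :
    ∃ n : ℕ, 1 ≤ n ∧ ∃ f : (Fin n → Bool) → Bool, ∃ q : ℕ, QuantComputes q f ∧
      ∀ q' : ℕ, RandComputes q' f → C * (1 + (q : ℝ)) ^ α < (q' : ℝ) := by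
  by_contra hcon
  push Not at hcon
  have hadm : max α 0 ∈ admissible := by
    refine ⟨le_max_right _ _, max C 0, fun n hn f => ?_⟩
    haveI : Nonempty (Fin n) := ⟨⟨0, hn⟩⟩
    have hQ : QuantComputes (Q f) f := Nat.sInf_mem (s := {q | QuantComputes q f}) (exists_quant f)
    obtain ⟨q', hq', hle⟩ := hcon n hn f (Q f) hQ
    have hR : R f ≤ q' := Nat.sInf_le (s := {q | RandComputes q f}) hq'
    have h1 : (1 : ℝ) ≤ 1 + (Q f : ℝ) := by
      have : (0 : ℝ) ≤ (Q f : ℝ) := Nat.cast_nonneg _
      linarith
    calc (R f : ℝ) ≤ (q' : ℝ) := by exact_mod_cast hR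
      _ ≤ C * (1 + (Q f : ℝ)) ^ α := hle
      _ ≤ max C 0 * (1 + (Q f : ℝ)) ^ α := by
          apply mul_le_mul_of_nonneg_right (le_max_left _ _)
          positivity
      _ ≤ max C 0 * (1 + (Q f : ℝ)) ^ (max α 0) := by
          apply mul_le_mul_of_nonneg_left _ (le_max_right _ _)
          exact Real.rpow_le_rpow_of_exponent_le h1 (le_max_left _ _)
  have := four_le_of_admissible hadm
  have h2 : max α 0 < 4 := max_lt hα (by norm_num)
  linarith

end Vale.Agent.Results.P362.NoSmallerExponent
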